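import Claimed.Agent.R282.S34.C.Lin

/-!
# Row 282, package BP-S34-C: weights, lattices and zero counts on blocks

Leaf L-C-4 = section `Wt`, L-C-5 = section `Par`.  Everything is elementary (`Finset.sum`, `Int` casts, `Bool` cases).
Definitions: `IsWtD, InQD, IsWtA, InQA, resL, resR, flipV, Lbl` in `S34/Defs.lean`; `WD.act, sgnB` in `Defs/Basic.lean`;
`Ty.IsW` in `S2C/Iface.lean` (`Ty.A.IsW u` unfolds to `∀ i, u.s i = false`).
Sorried lemmas of `Sched/*.lean` (prefix `sc_`) may be used freely, in particular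
`sc_act_sub_mem_Q, sc_inQD_add, sc_inQD_sub, sc_isWtD_act, sc_sum_split, sc_sgnB_cases`.
-/

set_option autoImplicit false

namespace Claimed.Agent.R282

variable {n p q : ℕ}

section Wt

theorem c34_isWtD_resL (e : Fin p ⊕ Fin q ≃ Fin n) (x : Vec n) (hx : IsWtD x) :
    IsWtD (resL e x) := by
  rcases hx with h | h
  · exact Or.inl fun i => h _
  · exact Or.inr fun i => h _

theorem c34_isWtD_resR (e : Fin p ⊕ Fin q ≃ Fin n) (x : Vec n) (hx : IsWtD x) :
    IsWtD (resR e x) := by
  rcases hx with h | h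
  · exact Or.inl fun i => h _
  · exact Or.inr fun i => h _

/-- a `D`-weight with some signs changed has integral differences -/
theorem c34_isWtA_flip (ε : Fin n → Bool) (x : Vec n) (hx : IsWtD x) : IsWtA (flipV ε x) := by
  intro i j
  simp only [flipV]
  rcases hx with h | h
  · obtain ⟨a, ha⟩ := h i
    obtain ⟨b, hb⟩ := h j
    rcases sc_sgnB_cases (ε i) with hi | hi <;> rcases sc_sgnB_cases (ε j) with hj | hj <;>
      rw [hi, hj, ha, hb]
    · exact ⟨a - b, by push_cast; ring⟩
    · exact ⟨a + b, by push_cast; ring⟩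
    · exact ⟨-a - b, by push_cast; ring⟩
    · exact ⟨-a + b, by push_cast; ring⟩
  · obtain ⟨a, ha⟩ := h i
    obtain ⟨b, hb⟩ := h j
    rcases sc_sgnB_cases (ε i) with hi | hi <;> rcases sc_sgnB_cases (ε j) with hj | hj <;>
      rw [hi, hj, ha, hb]
    · exact ⟨a - b, by push_cast; ring⟩
    · exact ⟨a + b + 1, by push_cast; ring⟩
    · exact ⟨-a - b - 1, by push_cast; ring⟩
    · exact ⟨-a + b, by push_cast; ring⟩

theorem c34_act_A (u : WD n) (hu : Ty.A.IsW u) (x : Vec n) (i : Fin n) :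
    u.act x i = x (u.σ.symm i) := by
  have : u.s i = false := hu i
  simp [WD.act, this, sgnB]

theorem c34_isWtA_act (u : WD n) (hu : Ty.A.IsW u) (x : Vec n) (hx : IsWtA x) :
    IsWtA (u.act x) := by
  intro i j
  rw [c34_act_A u hu, c34_act_A u hu]
  exact hx _ _

theorem c34_act_sub_int_A (u : WD n) (hu : Ty.A.IsW u) (x : Vec n) (hx : IsWtA x) (i : Fin n) :
    ∃ z : ℤ, u.act x i - x i = z := by
  rw [c34_act_A u hu]
  exact hx _ _

theorem c34_sum_act_A (u : WD n) (hu : Ty.A.IsW u) (x : Vec n) :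
    ∑ i, u.act x i = ∑ i, x i := by
  simp only [c34_act_A u hu]
  exact Equiv.sum_comp u.σ.symm x

theorem c34_flip_flip (ε : Fin n → Bool) (x : Vec n) : flipV ε (flipV ε x) = x := by
  funext i
  simp only [flipV]
  rw [← mul_assoc, sc_sgnB_mul_self, one_mul]

theorem c34_flipV_isLinear (ε : Fin n → Bool) : IsLinearMap ℝ (flipV ε) := by
  constructor
  · intro x y
    funext i
    simp only [flipV, Pi.add_apply]
    ring
  · intro a x
    funext i
    simp only [flipV, Pi.smul_apply, smul_eq_mul]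
    ring

/-- the identity as an unsigned element -/
theorem c34_WA_one : ∃ w : WD n, Ty.A.IsW w ∧ ∀ x, w.act x = x := by
  refine ⟨⟨1, fun _ => false, by simp⟩, fun _ => rfl, fun x => ?_⟩
  funext i
  simp only [WD.act, sgnB]
  simp
  rfl

theorem c34_sgnB_ne_zero (b : Bool) : sgnB b ≠ 0 := by
  rcases sc_sgnB_cases b with h | h <;> rw [h] <;> norm_num

/-- the number of zero coordinates is invariant under signed permutations … -/
theorem c34_zeros_act (w : WD n) (x : Vec n) :
    (Finset.univ.filter fun i => w.act x i = 0).card = (Finset.univ.filter fun i => x i = 0).card := by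
  apply Finset.card_bij (fun i _ => w.σ.symm i)
  · intro i hi
    have hi' : sgnB (w.s i) * x (w.σ.symm i) = 0 := (Finset.mem_filter.1 hi).2
    exact Finset.mem_filter.2 ⟨Finset.mem_univ _,
      (mul_eq_zero.1 hi').resolve_left (c34_sgnB_ne_zero _)⟩
  · intro i _ j _ h
    exact w.σ.symm.injective h
  · intro j hj
    have hj' : x j = 0 := (Finset.mem_filter.1 hj).2
    refine ⟨w.σ j, Finset.mem_filter.2 ⟨Finset.mem_univ _, ?_⟩, by simp⟩
    simp [WD.act, hj']

/-- … and does not increase under restriction -/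
theorem c34_zeros_resL (e : Fin p ⊕ Fin q ≃ Fin n) (x : Vec n) :
    (Finset.univ.filter fun i => resL e x i = 0).card ≤ (Finset.univ.filter fun i => x i = 0).card := by
  apply Finset.card_le_card_of_injOn (fun i => e (Sum.inl i))
  · intro i hi
    have hi' : resL e x i = 0 := (Finset.mem_filter.1 (Finset.mem_coe.1 hi)).2
    exact Finset.mem_coe.2 (Finset.mem_filter.2 ⟨Finset.mem_univ _, hi'⟩)
  · intro i _ j _ h
    exact Sum.inl_injective (e.injective h)

theorem c34_zeros_resR (e : Fin p ⊕ Fin q ≃ Fin n) (x : Vec n) :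
    (Finset.univ.filter fun i => resR e x i = 0).card ≤ (Finset.univ.filter fun i => x i = 0).card := by
  apply Finset.card_le_card_of_injOn (fun i => e (Sum.inr i))
  · intro i hi
    have hi' : resR e x i = 0 := (Finset.mem_filter.1 (Finset.mem_coe.1 hi)).2
    exact Finset.mem_coe.2 (Finset.mem_filter.2 ⟨Finset.mem_univ _, hi'⟩)
  · intro i _ j _ h
    exact Sum.inr_injective (e.injective h)

end Wt

section Par

/-- the assigned difference lies in the root lattice -/
theorem c34_inQD_total (lam xi : Vec n) (θ : Shape n) (L : Lbl lam θ xi) (u₁ u₂ u₃ : WD n) :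
    InQD (u₁.act lam + u₂.act θ.sum - u₃.act xi) := by
  have h1 := sc_act_sub_mem_Q u₁ lam L.wl
  have h2 := sc_act_sub_mem_Q u₂ θ.sum L.wm
  have h3 := sc_act_sub_mem_Q u₃ xi L.wx
  have h := sc_inQD_sub _ _ (sc_inQD_add _ _ (sc_inQD_add _ _ L.hQ h1) h2) h3
  have e : lam + θ.sum - xi + (u₁.act lam - lam) + (u₂.act θ.sum - θ.sum) - (u₃.act xi - xi)
      = u₁.act lam + u₂.act θ.sum - u₃.act xi := by abel
  rwa [e] at h

theorem c34_inQD_resR_of_resL (e : Fin p ⊕ Fin q ≃ Fin n) (x : Vec n) (hx : InQD x)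
    (hL : InQD (resL e x)) : InQD (resR e x) := by
  refine ⟨fun i => hx.1 _, ?_⟩
  obtain ⟨a, ha⟩ := hx.2
  obtain ⟨b, hb⟩ := hL.2
  refine ⟨a - b, ?_⟩
  have := sc_sum_split e x
  push_cast
  linarith

/-- changing signs does not change the parity of the sum of an integral vector -/
theorem c34_sum_flip_parity (ε : Fin n → Bool) (x : Vec n) (hx : ∀ i, ∃ z : ℤ, x i = z) :
    ∃ z : ℤ, ∑ i, x i = ∑ i, flipV ε x i + 2 * z := by
  choose g hg using hx
  refine ⟨∑ i, if ε i then g i else 0, ?_⟩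
  push_cast
  rw [Finset.mul_sum, ← Finset.sum_add_distrib]
  apply Finset.sum_congr rfl
  intro i _
  cases h : ε i
  · simp [flipV, sgnB, h]
  · simp only [flipV, sgnB, h, if_true, hg]
    ring

/-- a block on which the flipped difference has zero sum is even -/
theorem c34_inQD_resL_of_flip (e : Fin p ⊕ Fin q ≃ Fin n) (x : Vec n) (hx : InQD x)
    (ε : Fin p → Bool) (h0 : ∑ i, flipV ε (resL e x) i = 0) : InQD (resL e x) := by
  refine ⟨fun i => hx.1 _, ?_⟩
  obtain ⟨z, hz⟩ := c34_sum_flip_parity ε (resL e x) (fun i => hx.1 _)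
  exact ⟨z, by rw [hz, h0, zero_add]⟩

/-- sums over a set of axes adapted to the splitting -/
theorem c34_sum_resL (e : Fin p ⊕ Fin q ≃ Fin n) (B : Finset (Fin n))
    (hB : ∀ i, i ∈ B ↔ ∃ a, e (Sum.inl a) = i) (x : Vec n) :
    ∑ i, resL e x i = ∑ i ∈ B, x i := by
  apply Finset.sum_bij (fun i _ => e (Sum.inl i))
  · intro i _
    exact (hB _).2 ⟨i, rfl⟩
  · intro i _ j _ h
    exact Sum.inl_injective (e.injective h)
  · intro j hj
    obtain ⟨a, ha⟩ := (hB j).1 hj
    exact ⟨a, Finset.mem_univ _, ha⟩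
  · intro i _
    rfl

end Par

end Claimed.Agent.R282
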