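import Claimed.Agent.R282.S34.C.Mom

/-!
# Row 282, package BP-S34-C: Lemma 3.2 (combining blocks), contracts C2 and C3.  Glue only (proved).
-/

set_option autoImplicit false

namespace Claimed.Agent.R282

variable {n p q : ℕ}

/-- superposition of two integral raw block schedules, each with its own framing -/
theorem c34_superpose (e : Fin p ⊕ Fin q ≃ Fin n) (lam y : Vec n) (θ : Shape n)
    (uL wL : WD p) (uR wR : WD q) (lL : List (ℝ × RootD p)) (lR : List (ℝ × RootD q))
    (hL : RawSched (resL e lam) ((θ.map (resL e)).map uL.act) (wL.act (resL e y)) lL)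
    (hLi : SwIntegral ((θ.map (resL e)).map uL.act) ⟨id, resL e lam⟩ lL)
    (hR : RawSched (resR e lam) ((θ.map (resR e)).map uR.act) (wR.act (resR e y)) lR)
    (hRi : SwIntegral ((θ.map (resR e)).map uR.act) ⟨id, resR e lam⟩ lR) :
    ∃ (U W : WD n) (l : List (ℝ × RootD n)), RawSched lam (θ.map U.act) (W.act y) l ∧
      SwIntegral (θ.map U.act) ⟨id, lam⟩ l := by
  obtain ⟨U, hU⟩ := sc_WD_block e uL uR
  obtain ⟨W, hW⟩ := sc_WD_block e wL wR
  have hmL : (θ.map U.act).map (resL e) = (θ.map (resL e)).map uL.act := by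
    rw [List.map_map, List.map_map]
    apply List.map_congr_left
    intro v _
    simp only [Function.comp, hU, sc_resL_glue]
  have hmR : (θ.map U.act).map (resR e) = (θ.map (resR e)).map uR.act := by
    rw [List.map_map, List.map_map]
    apply List.map_congr_left
    intro v _
    simp only [Function.comp, hU, sc_resR_glue]
  have hyL : resL e (W.act y) = wL.act (resL e y) := by rw [hW, sc_resL_glue]
  have hyR : resR e (W.act y) = wR.act (resR e y) := by rw [hW, sc_resR_glue]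
  obtain ⟨T, hTL, hTR, hT⟩ := sc_raw_superpose e lam (W.act y) (θ.map U.act) lL lR
    (by rw [hmL, hyL]; exact hL) (by rw [hmR, hyR]; exact hR)
  refine ⟨U, W, untag e T, hT, ?_⟩
  have hc : BlockCompat e (⟨id, lam⟩ : SwState n) ⟨id, resL e lam⟩ ⟨id, resR e lam⟩ :=
    ⟨fun _ => rfl, fun _ => rfl, rfl, rfl⟩
  rw [sc_tag_integral e (θ.map U.act) _ _ _ hc T, hTL, hTR, hmL, hmR]
  exact ⟨hLi, hRi⟩

/-- common end of C2 and C3 -/
theorem c34_finish (e : Fin p ⊕ Fin q ≃ Fin n) (lam xi : Vec n) (θ : Shape n) (u₁ u₂ u₃ : WD n)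
    (uL wL : WD p) (uR wR : WD q) (lL : List (ℝ × RootD p)) (lR : List (ℝ × RootD q))
    (hL : RawSched (resL e (u₁.act lam)) (((θ.map u₂.act).map (resL e)).map uL.act)
      (wL.act (resL e (u₃.act xi))) lL)
    (hLi : SwIntegral (((θ.map u₂.act).map (resL e)).map uL.act) ⟨id, resL e (u₁.act lam)⟩ lL)
    (hR : RawSched (resR e (u₁.act lam)) (((θ.map u₂.act).map (resR e)).map uR.act)
      (wR.act (resR e (u₃.act xi))) lR)
    (hRi : SwIntegral (((θ.map u₂.act).map (resR e)).map uR.act) ⟨id, resR e (u₁.act lam)⟩ lR) :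
    HasIntSchedule lam θ xi := by
  obtain ⟨U, W, l, hr, hi⟩ := c34_superpose e (u₁.act lam) (u₃.act xi) (θ.map u₂.act)
    uL wL uR wR lL lR hL hLi hR hRi
  obtain ⟨U', hU'⟩ := sc_WD_mul U u₂
  obtain ⟨W', hW'⟩ := sc_WD_mul W u₃
  have hmap : (θ.map u₂.act).map U.act = θ.map U'.act := by
    rw [List.map_map]
    apply List.map_congr_left
    intro v _
    simp only [Function.comp, hU']
  rw [hmap] at hr hi
  rw [← hW'] at hr
  exact (sc_hasInt_act_lam u₁ lam xi θ).1 (sc_hasInt_of_raw (u₁.act lam) xi θ U' W' l hr hi)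

/-- the data of an orthogonal block -/
theorem c34_block_D_L (e : Fin p ⊕ Fin q ≃ Fin n) (hp : Thm31D p) (lam xi : Vec n) (θ : Shape n)
    (L : Lbl lam θ xi) (u₁ u₂ u₃ : WD n)
    (hP : MomentD (resL e (u₁.act lam)) (resL e (u₂.act θ.sum)) (resL e (u₃.act xi)))
    (par : InQD (resL e (u₁.act lam + u₂.act θ.sum - u₃.act xi))) :
    ∃ (uL wL : WD p) (lL : List (ℝ × RootD p)),
      RawSched (resL e (u₁.act lam)) (((θ.map u₂.act).map (resL e)).map uL.act)
        (wL.act (resL e (u₃.act xi))) lL ∧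
      SwIntegral (((θ.map u₂.act).map (resL e)).map uL.act) ⟨id, resL e (u₁.act lam)⟩ lL := by
  have hs1 : OneSign (θ.map u₂.act) := sc_oneSign_map θ (sc_oneSign_dom θ L.dom) u₂.toWB
  have hsum : ((θ.map u₂.act).map (resL e)).sum = resL e (u₂.act θ.sum) := by
    rw [sc_sum_map _ _ (sc_resL_isLinear e), sc_sum_map _ _ (sc_WD_act_isLinear u₂)]
  apply c34_int_raw_D hp
  · intro h
    exact L.ne (by simpa using h)
  · exact sc_oneSign_resL e _ hs1
  · exact c34_isWtD_resL e _ (sc_isWtD_act u₁ _ L.wl)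
  · rw [hsum]; exact c34_isWtD_resL e _ (sc_isWtD_act u₂ _ L.wm)
  · exact c34_isWtD_resL e _ (sc_isWtD_act u₃ _ L.wx)
  · rw [hsum]
    exact par
  · rw [hsum]
    exact (c34_zeros_resL e _).trans ((c34_zeros_act u₂ _).le.trans L.hz)
  · rw [hsum]; exact hP

theorem c34_block_D_R (e : Fin p ⊕ Fin q ≃ Fin n) (hq : Thm31D q) (lam xi : Vec n) (θ : Shape n)
    (L : Lbl lam θ xi) (u₁ u₂ u₃ : WD n)
    (hQ : MomentD (resR e (u₁.act lam)) (resR e (u₂.act θ.sum)) (resR e (u₃.act xi)))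
    (par : InQD (resR e (u₁.act lam + u₂.act θ.sum - u₃.act xi))) :
    ∃ (uR wR : WD q) (lR : List (ℝ × RootD q)),
      RawSched (resR e (u₁.act lam)) (((θ.map u₂.act).map (resR e)).map uR.act)
        (wR.act (resR e (u₃.act xi))) lR ∧
      SwIntegral (((θ.map u₂.act).map (resR e)).map uR.act) ⟨id, resR e (u₁.act lam)⟩ lR := by
  have hs1 : OneSign (θ.map u₂.act) := sc_oneSign_map θ (sc_oneSign_dom θ L.dom) u₂.toWB
  have hsum : ((θ.map u₂.act).map (resR e)).sum = resR e (u₂.act θ.sum) := by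
    rw [sc_sum_map _ _ (sc_resR_isLinear e), sc_sum_map _ _ (sc_WD_act_isLinear u₂)]
  apply c34_int_raw_D hq
  · intro h
    exact L.ne (by simpa using h)
  · exact sc_oneSign_resR e _ hs1
  · exact c34_isWtD_resR e _ (sc_isWtD_act u₁ _ L.wl)
  · rw [hsum]; exact c34_isWtD_resR e _ (sc_isWtD_act u₂ _ L.wm)
  · exact c34_isWtD_resR e _ (sc_isWtD_act u₃ _ L.wx)
  · rw [hsum]
    exact par
  · rw [hsum]
    exact (c34_zeros_resR e _).trans ((c34_zeros_act u₂ _).le.trans L.hz)
  · rw [hsum]; exact hQ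

/-- (C2) Lemma 3.2 in label form, two orthogonal blocks of even parity. -/
theorem c34_combine_DD (e : Fin p ⊕ Fin q ≃ Fin n) (hp : Thm31D p) (hq : Thm31D q)
    (lam xi : Vec n) (θ : Shape n) (L : Lbl lam θ xi) (u₁ u₂ u₃ : WD n)
    (hP : MomentD (resL e (u₁.act lam)) (resL e (u₂.act θ.sum)) (resL e (u₃.act xi)))
    (hQ : MomentD (resR e (u₁.act lam)) (resR e (u₂.act θ.sum)) (resR e (u₃.act xi)))
    (par : InQD (resL e (u₁.act lam + u₂.act θ.sum - u₃.act xi))) :
    HasIntSchedule lam θ xi := by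
  obtain ⟨uL, wL, lL, hL, hLi⟩ := c34_block_D_L e hp lam xi θ L u₁ u₂ u₃ hP par
  obtain ⟨uR, wR, lR, hR, hRi⟩ := c34_block_D_R e hq lam xi θ L u₁ u₂ u₃ hQ
    (c34_inQD_resR_of_resL e _ (c34_inQD_total lam xi θ L u₁ u₂ u₃) par)
  exact c34_finish e lam xi θ u₁ u₂ u₃ uL wL uR wR lL lR hL hLi hR hRi

/-- the data of a permutation block -/
theorem c34_block_A_L (e : Fin p ⊕ Fin q ≃ Fin n) (hp : Thm31A p) (lam xi : Vec n) (θ : Shape n)
    (L : Lbl lam θ xi) (u₁ u₂ u₃ : WD n) (ε : Fin p → Bool)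
    (hP : MomentA (flipV ε (resL e (u₁.act lam))) (flipV ε (resL e (u₂.act θ.sum)))
      (flipV ε (resL e (u₃.act xi)))) :
    ∃ (uL wL : WD p) (lL : List (ℝ × RootD p)),
      RawSched (resL e (u₁.act lam)) (((θ.map u₂.act).map (resL e)).map uL.act)
        (wL.act (resL e (u₃.act xi))) lL ∧
      SwIntegral (((θ.map u₂.act).map (resL e)).map uL.act) ⟨id, resL e (u₁.act lam)⟩ lL := by
  have hs1 : OneSign (θ.map u₂.act) := sc_oneSign_map θ (sc_oneSign_dom θ L.dom) u₂.toWB
  set g : WB p := WB.ofFlip ε with hg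
  have hgact : g.act = flipV ε := funext (sc_ofFlip_act ε)
  set θL : Shape p := (θ.map u₂.act).map (resL e) with hθL
  have hsumL : θL.sum = resL e (u₂.act θ.sum) := by
    rw [hθL, sc_sum_map _ _ (sc_resL_isLinear e), sc_sum_map _ _ (sc_WD_act_isLinear u₂)]
  have hsum : (θL.map (flipV ε)).sum = flipV ε (resL e (u₂.act θ.sum)) := by
    rw [sc_sum_map _ _ (c34_flipV_isLinear ε), hsumL]
  have hs2 : OneSign (θL.map (flipV ε)) := by
    rw [← hgact]
    exact sc_oneSign_map _ (sc_oneSign_resL e _ hs1) g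
  have htot := c34_inQD_total lam xi θ L u₁ u₂ u₃
  have hlin := c34_flipV_isLinear ε
  have hlinL := sc_resL_isLinear e
  have hdiff : flipV ε (resL e (u₁.act lam)) + flipV ε (resL e (u₂.act θ.sum))
      - flipV ε (resL e (u₃.act xi))
      = flipV ε (resL e (u₁.act lam + u₂.act θ.sum - u₃.act xi)) := by
    funext i
    simp only [flipV, resL, Pi.add_apply, Pi.sub_apply]
    ring
  have hQA : InQA (flipV ε (resL e (u₁.act lam)) + (θL.map (flipV ε)).sum
      - flipV ε (resL e (u₃.act xi))) := by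
    rw [hsum]
    refine ⟨fun i => ?_, ?_⟩
    · rw [hdiff]
      obtain ⟨z, hz⟩ := htot.1 (e (Sum.inl i))
      rcases sc_sgnB_cases (ε i) with h | h
      · exact ⟨z, by simp only [flipV, resL, h, hz, one_mul]⟩
      · exact ⟨-z, by simp only [flipV, resL, h, hz]; push_cast; ring⟩
    · have := momentA_central _ _ _ hP
      simp only [Pi.add_apply, Pi.sub_apply, Finset.sum_add_distrib, Finset.sum_sub_distrib]
      linarith
  obtain ⟨u, w, l, hu, hw, -, hr, hi⟩ := c34_int_raw_A hp (flipV ε (resL e (u₁.act lam)))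
    (flipV ε (resL e (u₃.act xi))) (θL.map (flipV ε))
    (by intro h; exact L.ne (by simpa [hθL] using h))
    (sc_oneSignA_of _ hs2)
    (c34_isWtA_flip ε _ (c34_isWtD_resL e _ (sc_isWtD_act u₁ _ L.wl)))
    (by rw [hsum]; exact c34_isWtA_flip ε _ (c34_isWtD_resL e _ (sc_isWtD_act u₂ _ L.wm)))
    (c34_isWtA_flip ε _ (c34_isWtD_resL e _ (sc_isWtD_act u₃ _ L.wx)))
    hQA (by rw [hsum]; exact hP)
  have hgg : ∀ x, g.act (g.act x) = x := fun x => by rw [hgact, c34_flip_flip]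
  obtain ⟨uL, huL⟩ := sc_WD_conj g g hgg u
  obtain ⟨wL, hwL⟩ := sc_WD_conj g g hgg w
  have hmap : ((θL.map (flipV ε)).map u.act).map g.act = θL.map uL.act := by
    rw [List.map_map, List.map_map]
    apply List.map_congr_left
    intro v _
    simp only [Function.comp, huL, hgact]
  have h1 : g.act (flipV ε (resL e (u₁.act lam))) = resL e (u₁.act lam) := by
    rw [hgact, c34_flip_flip]
  have h3 : g.act (w.act (flipV ε (resL e (u₃.act xi)))) = wL.act (resL e (u₃.act xi)) := by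
    rw [hwL, hgact]
  refine ⟨uL, wL, mapSw g l, ?_, ?_⟩
  · have := (sc_raw_equiv g _ _ _ l).2 hr
    rwa [hmap, h1, h3] at this
  · have := (sc_raw_equiv_integral g _ _ l).2 hi
    rwa [hmap, h1] at this

/-- (C3) Lemma 3.2 in label form, a permutation block (after the sign change `ε` of its axes) and
an orthogonal block. -/
theorem c34_combine_AD (e : Fin p ⊕ Fin q ≃ Fin n) (hp : Thm31A p) (hq : Thm31D q)
    (lam xi : Vec n) (θ : Shape n) (L : Lbl lam θ xi) (u₁ u₂ u₃ : WD n) (ε : Fin p → Bool)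
    (hP : MomentA (flipV ε (resL e (u₁.act lam))) (flipV ε (resL e (u₂.act θ.sum)))
      (flipV ε (resL e (u₃.act xi))))
    (hQ : MomentD (resR e (u₁.act lam)) (resR e (u₂.act θ.sum)) (resR e (u₃.act xi))) :
    HasIntSchedule lam θ xi := by
  obtain ⟨uL, wL, lL, hL, hLi⟩ := c34_block_A_L e hp lam xi θ L u₁ u₂ u₃ ε hP
  have htot := c34_inQD_total lam xi θ L u₁ u₂ u₃
  have h0 : ∑ i, flipV ε (resL e (u₁.act lam + u₂.act θ.sum - u₃.act xi)) i = 0 := by
    have := momentA_central _ _ _ hP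
    have h2 : ∀ i, flipV ε (resL e (u₁.act lam + u₂.act θ.sum - u₃.act xi)) i
        = flipV ε (resL e (u₁.act lam)) i + flipV ε (resL e (u₂.act θ.sum)) i
          - flipV ε (resL e (u₃.act xi)) i := by
      intro i
      simp only [flipV, resL, Pi.add_apply, Pi.sub_apply]
      ring
    simp only [h2, Finset.sum_add_distrib, Finset.sum_sub_distrib]
    linarith
  obtain ⟨uR, wR, lR, hR, hRi⟩ := c34_block_D_R e hq lam xi θ L u₁ u₂ u₃ hQ
    (c34_inQD_resR_of_resL e _ htot (c34_inQD_resL_of_flip e _ htot ε h0))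
  exact c34_finish e lam xi θ u₁ u₂ u₃ uL wL uR wR lL lR hL hLi hR hRi

end Claimed.Agent.R282
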