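import Claimed.Agent.R282.S34.C.Comb

/-!
# Row 282, package BP-S34-C: Theorem 3.1 (i) (contract C1) and Lemma 3.3 (contract C4)

Leaves: L-C-7 = `c34_closed_level`, `c34_flip_perm` (signs of a vector orthogonal to the switch roots).
Everything else in this file is glue (proved).

`c34_closed_level`: `sc_dot_vec`: `± x_i ± x_j = 0` gives `|x_i| = |x_j|`.
`c34_flip_perm`: a member of `mapSw g (tagL T)` is `(t, β.map g)` with `(t, Sum.inl β) ∈ T`, so `(t, β.inL e) ∈ untag e T`;
`sc_dot_vec` gives `sgnB β.si * x (e (inl β.i)) + sgnB β.sj * x (e (inl β.j)) = 0` with both `|x ..| = κ > 0`;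
`(β.map (WB.ofFlip ε)).si = xor (ε β.i) β.si` (here `σ = 1`); four sign cases for `x`, four for `(si, sj)`.
-/

set_option autoImplicit false

namespace Claimed.Agent.R282

variable {n p q : ℕ}

/-! ## small tools -/

theorem c34_swIntegral_iff (θ : Shape n) (S : SwState n) (l : List (ℝ × RootD n)) :
    SwIntegral θ S l ↔ ∀ m ∈ swCoeffs θ S l, ∃ z : ℤ, m = z := by
  induction l generalizing S with
  | nil => simp [SwIntegral, swCoeffs]
  | cons p l ih => simp [SwIntegral, swCoeffs, ih]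

/-- frames of permutation schedules are unsigned -/
theorem c34_frameA_run (θ : Shape n) (w0 : WD n) (hw0 : Ty.A.IsW w0) (c : Vec n)
    (l : List (ℝ × RootD n)) (hperm : ∀ x ∈ l, x.2.IsPerm) :
    ∃ u : WD n, Ty.A.IsW u ∧ (runSw θ ⟨w0.act, c⟩ l).frame = u.act := by
  induction l generalizing w0 c with
  | nil => exact ⟨w0, hw0, rfl⟩
  | cons x l ih =>
    obtain ⟨r, hrA, hr⟩ := sc_WA_refl x.2 (hperm x (List.mem_cons_self))
    obtain ⟨w', hw'A, hw'⟩ := sc_WA_mul r w0 hrA hw0
    have hst : (⟨w0.act, c⟩ : SwState n).step θ x.1 x.2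
        = ⟨w'.act, c - (⟨w0.act, c⟩ : SwState n).coeff θ x.1 x.2 • x.2.vec⟩ := by
      simp only [SwState.step]
      congr 1
      funext y
      rw [hw', hr]
    simp only [runSw]
    rw [hst]
    exact ih w' hw'A _ (fun y hy => hperm y (List.mem_cons_of_mem _ hy))

/-- the balance of the virtual endpoint `Y = c + f μ` -/
theorem c34_virtual_balance (θ : Shape n) (S : SwState n) (l : List (ℝ × RootD n)) :
    relSum (List.zipWith (· - ·) (swCoeffs θ S l) (swTotals θ S l)) l
      = (S.c + S.frame θ.sum) - ((runSw θ S l).c + (runSw θ S l).frame θ.sum) := by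
  induction l generalizing S with
  | nil => simp [relSum, runSw, swCoeffs, swTotals]
  | cons x l ih =>
    simp only [swCoeffs, swTotals, List.zipWith_cons_cons, runSw]
    rw [sc_relSum_cons, ih, sc_virtual_step]
    module

theorem c34_totals_int (θ : Shape n) (wm : IsWtD θ.sum) (S : SwState n) (hS : IsFrame S.frame)
    (l : List (ℝ × RootD n)) : ∀ a ∈ swTotals θ S l, ∃ z : ℤ, a = z := by
  induction l generalizing S with
  | nil => simp [swTotals]
  | cons x l ih =>
    intro a ha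
    simp only [swTotals, List.mem_cons] at ha
    rcases ha with rfl | ha
    · obtain ⟨γ, hγ⟩ := sc_frame_root S.frame hS x.2
      obtain ⟨z, hz⟩ := sc_wt_dot_root θ.sum wm γ
      refine ⟨-z, ?_⟩
      simp only [SwState.total, hγ]
      rw [sc_dot_comm, hz]
      push_cast
      ring
    · exact ih (S.step θ x.1 x.2) (sc_isFrame_refl S.frame hS x.2) a ha

theorem c34_int_of_sub (a b : List ℝ) (hab : a.length = b.length)
    (h : ∀ m ∈ (List.zipWith (· - ·) a b : List ℝ), ∃ z : ℤ, m = z) (hb : ∀ m ∈ b, ∃ z : ℤ, m = z) :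
    ∀ m ∈ a, ∃ z : ℤ, m = z := by
  induction a generalizing b with
  | nil => simp
  | cons x a ih =>
    cases b with
    | nil => simp at hab
    | cons y b =>
      intro m hm
      simp only [List.zipWith_cons_cons, List.mem_cons, forall_eq_or_imp] at h hb
      rcases List.mem_cons.1 hm with rfl | hm
      · obtain ⟨z, hz⟩ := h.1
        obtain ⟨z', hz'⟩ := hb.1
        exact ⟨z + z', by push_cast; linarith⟩
      · exact ih b (by simpa using hab) h.2 hb.2 m hm

/-! ## (C1) -/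

/-- (C1) Theorem 3.1 (i). -/
theorem c34_thm31A (h : BasicSchedule .A) (m : ℕ) : Thm31A m := by
  intro lam xi θ hne hdom wl wm wx hQ hM
  obtain ⟨w0, l, hs, hind, -⟩ := h m lam θ.sum xi θ hne hdom rfl hM
  refine ⟨w0, l, hs, (c34_swIntegral_iff _ _ _).2 ?_⟩
  apply c34_coeff_int_A l hind hs.roots_mem _ (sc_coeffs_length _ _ _)
  intro a
  obtain ⟨u, hu, hfr⟩ := c34_frameA_run θ w0 hs.w0_mem lam l hs.roots_mem
  obtain ⟨w, hw, hend⟩ := hs.endpoint
  have hc := sc_runSw_c θ ⟨w0.act, lam⟩ l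
  have hrel : relSum (swCoeffs θ ⟨w0.act, lam⟩ l) l = lam + u.act θ.sum - w.act xi := by
    rw [← hend]
    simp only [SwState.pos, sc_val_length, hfr, hc]
    abel
  rw [hrel]
  obtain ⟨z1, hz1⟩ := hQ.1 a
  obtain ⟨z2, hz2⟩ := c34_act_sub_int_A u hu θ.sum wm a
  obtain ⟨z3, hz3⟩ := c34_act_sub_int_A w hw xi wx a
  refine ⟨z1 + z2 - z3, ?_⟩
  simp only [Pi.add_apply, Pi.sub_apply] at hz1 ⊢
  push_cast
  linarith

/-! ## L-C-7 -/

theorem c34_closed_level (l : List (ℝ × RootD n)) (x : Vec n)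
    (horth : ∀ y ∈ l, dot x y.2.vec = 0) (κ : ℝ) :
    SwClosed l (Finset.univ.filter fun i => |x i| = κ) := by
  intro y hy
  have h := horth y hy
  rw [sc_dot_vec] at h
  simp only [Finset.mem_filter, Finset.mem_univ, true_and]
  rw [c34_abs_eq_of_pair _ _ _ _ h]

theorem c34_flip_perm (e : Fin p ⊕ Fin q ≃ Fin n) (x : Vec n) (κ : ℝ) (hκ : 0 < κ)
    (hB : ∀ a : Fin p, |x (e (Sum.inl a))| = κ) (T : TagSw p q)
    (horth : ∀ y ∈ untag e T, dot x y.2.vec = 0) :
    ∀ y ∈ mapSw (WB.ofFlip (fun a => decide (x (e (Sum.inl a)) < 0))) (tagL T), y.2.IsPerm := by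
  intro y hy
  simp only [mapSw, List.mem_map] at hy
  obtain ⟨z, hz, rfl⟩ := hy
  simp only [tagL, List.mem_filterMap] at hz
  obtain ⟨t, ht, hzt⟩ := hz
  obtain ⟨t1, t2⟩ := t
  cases t2 with
  | inr β => simp at hzt
  | inl β =>
    simp only [Sum.elim_inl, Option.some.injEq] at hzt
    subst hzt
    have hmem : (t1, β.inL e) ∈ untag e T := by
      simp only [untag, List.mem_map]
      exact ⟨(t1, Sum.inl β), ht, rfl⟩
    have h := horth _ hmem
    rw [sc_dot_vec] at h
    simp only [RootD.inL] at h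
    have ha := hB β.i
    have hb := hB β.j
    simp only [RootD.IsPerm, RootD.map, WB.ofFlip, Equiv.Perm.coe_one, id]
    have ha' : x (e (Sum.inl β.i)) = κ ∨ x (e (Sum.inl β.i)) = -κ := (abs_eq hκ.le).1 ha
    have hb' : x (e (Sum.inl β.j)) = κ ∨ x (e (Sum.inl β.j)) = -κ := (abs_eq hκ.le).1 hb
    rcases ha' with ha' | ha' <;> rcases hb' with hb' | hb' <;> rw [ha', hb'] at h ⊢ <;>
      cases h1 : β.si <;> cases h2 : β.sj <;> simp only [h1, h2, sgnB] at h ⊢ <;>
      first
        | (exfalso; simp at h; linarith)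
        | simp [hκ, not_lt.2 hκ.le]

/-! ## restriction of a schedule to blocks gives moments -/

theorem c34_restrict_momentD_L (s26 : SchedMoment .D) (e : Fin p ⊕ Fin q ≃ Fin n) (lam y : Vec n)
    (θ : Shape n) (h1 : OneSign θ) (T : TagSw p q) (h : RawSched lam θ y (untag e T)) :
    MomentD (resL e lam) (resL e θ.sum) (resL e y) := by
  have := c34_raw_momentD s26 _ _ _ (sc_oneSign_resL e θ h1) _ (sc_raw_restrict e lam y θ T h).1
  rwa [sc_sum_map _ _ (sc_resL_isLinear e)] at this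

theorem c34_restrict_momentD_R (s26 : SchedMoment .D) (e : Fin p ⊕ Fin q ≃ Fin n) (lam y : Vec n)
    (θ : Shape n) (h1 : OneSign θ) (T : TagSw p q) (h : RawSched lam θ y (untag e T)) :
    MomentD (resR e lam) (resR e θ.sum) (resR e y) := by
  have := c34_raw_momentD s26 _ _ _ (sc_oneSign_resR e θ h1) _ (sc_raw_restrict e lam y θ T h).2
  rwa [sc_sum_map _ _ (sc_resR_isLinear e)] at this

theorem c34_restrict_momentA_L (s26 : SchedMoment .A) (e : Fin p ⊕ Fin q ≃ Fin n) (lam y : Vec n)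
    (θ : Shape n) (h1 : OneSign θ) (T : TagSw p q) (h : RawSched lam θ y (untag e T))
    (ε : Fin p → Bool) (hperm : ∀ z ∈ mapSw (WB.ofFlip ε) (tagL T), z.2.IsPerm) :
    MomentA (flipV ε (resL e lam)) (flipV ε (resL e θ.sum)) (flipV ε (resL e y)) := by
  have hgact : (WB.ofFlip ε).act = flipV ε := funext (sc_ofFlip_act ε)
  have hr := (sc_raw_equiv (WB.ofFlip ε) _ _ _ _).2 (sc_raw_restrict e lam y θ T h).1
  have h2 : OneSign ((θ.map (resL e)).map (WB.ofFlip ε).act) :=
    sc_oneSign_map _ (sc_oneSign_resL e θ h1) _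
  have := c34_raw_momentA s26 _ _ _ (sc_oneSignA_of _ h2) _ hperm hr
  rw [sc_sum_map _ _ (sc_WB_act_isLinear _), sc_sum_map _ _ (sc_resL_isLinear e)] at this
  rwa [hgact] at this

/-! ## (C4), first case: the roots do not span -/

theorem c34_balanced (C : Ctx n) (lam xi : Vec n) (θ : Shape n) (L : Lbl lam θ xi) (w0 : WD n)
    (l : List (ℝ × RootD n)) (hs : IsSchedule lam θ xi w0 l) (x : Vec n) (hx : x ≠ 0)
    (horth : ∀ y ∈ l, dot x y.2.vec = 0) : HasIntSchedule lam θ xi := by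
  obtain ⟨a, ha⟩ := Function.ne_iff.1 hx
  have hκ : 0 < |x a| := abs_pos.2 ha
  set B : Finset (Fin n) := Finset.univ.filter fun i => |x i| = |x a| with hBdef
  have hcl : SwClosed l B := c34_closed_level l x horth _
  obtain ⟨p, q, e, hp, hpq, hB⟩ := sc_exists_split B
  obtain ⟨T, rfl⟩ := sc_exists_tag e B hB l hcl
  obtain ⟨w, hr⟩ := (sc_raw_iff lam xi θ w0 _).1 hs
  have h1 : OneSign (θ.map w0.act) := sc_oneSign_map θ (sc_oneSign_dom θ L.dom) w0.toWB
  have hsum : (θ.map w0.act).sum = w0.act θ.sum := sc_sum_map _ _ (sc_WD_act_isLinear w0)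
  have hBa : ∀ b : Fin p, |x (e (Sum.inl b))| = |x a| := fun b => by
    have : e (Sum.inl b) ∈ B := (hB _).2 ⟨b, rfl⟩
    exact (Finset.mem_filter.1 this).2
  have hperm := c34_flip_perm e x _ hκ hBa T horth
  have hA := c34_restrict_momentA_L C.s26A e lam (w.act xi) _ h1 T hr _ hperm
  have hD := c34_restrict_momentD_R C.s26D e lam (w.act xi) _ h1 T hr
  rw [hsum] at hA hD
  obtain ⟨e1, he1⟩ := sc_WD_one (n := n)
  have hp1 : 1 ≤ p := by
    rw [hp]
    exact Finset.card_pos.2 ⟨a, Finset.mem_filter.2 ⟨Finset.mem_univ _, rfl⟩⟩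
  exact c34_combine_AD e (c34_thm31A C.b22A p) (C.ih q (by omega)) lam xi θ L e1 w0 w _
    (by rw [he1]; exact hA) (by rw [he1]; exact hD)

/-! ## (C4), second case -/

/-- the assigned difference of a schedule -/
def c34Diff (lam : Vec n) (θ : Shape n) (w0 : WD n) (l : List (ℝ × RootD n)) : Vec n :=
  fun i => lam i + w0.act θ.sum i - (runSw θ ⟨w0.act, lam⟩ l).pos θ θ.length i

theorem c34_diff_mem_Q (lam xi : Vec n) (θ : Shape n) (L : Lbl lam θ xi) (w0 : WD n)
    (l : List (ℝ × RootD n)) (hs : IsSchedule lam θ xi w0 l) : InQD (c34Diff lam θ w0 l) := by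
  obtain ⟨w, hw⟩ := hs.endpoint
  obtain ⟨e1, he1⟩ := sc_WD_one (n := n)
  have := c34_inQD_total lam xi θ L e1 w0 w
  rw [he1, ← hw] at this
  exact this

theorem c34_diff_eq_relSum (lam : Vec n) (θ : Shape n) (w0 : WD n) (l : List (ℝ × RootD n)) :
    relSum (List.zipWith (· - ·) (swCoeffs θ ⟨w0.act, lam⟩ l) (swTotals θ ⟨w0.act, lam⟩ l)) l
      = c34Diff lam θ w0 l := by
  rw [c34_virtual_balance]
  funext i
  simp only [c34Diff, SwState.pos, sc_val_length, Pi.add_apply, Pi.sub_apply]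

/-- every proper nonempty closed set of axes is odd -/
theorem c34_closed_odd (C : Ctx n) (lam xi : Vec n) (θ : Shape n) (L : Lbl lam θ xi)
    (hno : ¬ HasIntSchedule lam θ xi) (w0 : WD n) (l : List (ℝ × RootD n))
    (hs : IsSchedule lam θ xi w0 l) (B : Finset (Fin n)) (hcl : SwClosed l B) (hne : B.Nonempty)
    (hne' : B ≠ Finset.univ) : ∃ z : ℤ, ∑ i ∈ B, c34Diff lam θ w0 l i = 2 * z + 1 := by
  have hdQ := c34_diff_mem_Q lam xi θ L w0 l hs
  have hint : ∃ z : ℤ, ∑ i ∈ B, c34Diff lam θ w0 l i = z := by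
    choose f hf using hdQ.1
    exact ⟨∑ i ∈ B, f i, by push_cast; exact Finset.sum_congr rfl (fun i _ => hf i)⟩
  obtain ⟨z, hz⟩ := hint
  rcases Int.even_or_odd' z with ⟨k, hk | hk⟩
  swap
  · exact ⟨k, by rw [hz, hk]; push_cast; ring⟩
  exfalso
  apply hno
  obtain ⟨p, q, e, hp, hpq, hB⟩ := sc_exists_split B
  obtain ⟨T, rfl⟩ := sc_exists_tag e B hB l hcl
  obtain ⟨w, hr⟩ := (sc_raw_iff lam xi θ w0 _).1 hs
  have hend : (runSw θ ⟨w0.act, lam⟩ (untag e T)).pos θ θ.length = w.act xi := by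
    have h2 := hr.endpoint
    have h3 := sc_reframe_pos θ w0.act (sc_WD_act_isLinear w0) id lam (untag e T) θ.length
    simp only [id] at h3
    rw [List.length_map] at h2
    exact h3.trans h2
  have h1 : OneSign (θ.map w0.act) := sc_oneSign_map θ (sc_oneSign_dom θ L.dom) w0.toWB
  have hsum : (θ.map w0.act).sum = w0.act θ.sum := sc_sum_map _ _ (sc_WD_act_isLinear w0)
  have hDL := c34_restrict_momentD_L C.s26D e lam (w.act xi) _ h1 T hr
  have hDR := c34_restrict_momentD_R C.s26D e lam (w.act xi) _ h1 T hr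
  rw [hsum] at hDL hDR
  obtain ⟨e1, he1⟩ := sc_WD_one (n := n)
  have hp1 : 1 ≤ p := by rw [hp]; exact Finset.card_pos.2 hne
  have hp2 : p < n := by
    rw [hp]
    have := Finset.card_lt_univ_of_notMem (s := B) (x := (Finset.univ \ B).min' ?_) ?_
    · simpa using this
    · rw [Finset.sdiff_nonempty]
      intro hsub
      exact hne' (Finset.eq_univ_of_forall fun i => hsub (Finset.mem_univ i))
    · exact (Finset.mem_sdiff.1 (Finset.min'_mem _ _)).2
  have hdiff : c34Diff lam θ w0 (untag e T) = lam + w0.act θ.sum - w.act xi := by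
    funext i
    simp only [c34Diff, hend, Pi.add_apply, Pi.sub_apply]
  have par : InQD (resL e (e1.act lam + w0.act θ.sum - w.act xi)) := by
    rw [he1, ← hdiff]
    refine ⟨fun i => hdQ.1 _, k, ?_⟩
    rw [c34_sum_resL e B hB, hz, hk]
    push_cast
    ring
  exact c34_combine_DD e (C.ih p hp2) (C.ih q (by omega)) lam xi θ L e1 w0 w
    (by rw [he1]; exact hDL) (by rw [he1]; exact hDR) par

theorem c34_closed_sdiff (l : List (ℝ × RootD n)) (A B : Finset (Fin n)) (hA : SwClosed l A)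
    (hB : SwClosed l B) : SwClosed l (A \ B) := by
  intro x hx
  simp only [Finset.mem_sdiff, hA x hx, hB x hx]

theorem c34_closed_compl (l : List (ℝ × RootD n)) (B : Finset (Fin n)) (hB : SwClosed l B) :
    SwClosed l Bᶜ := by
  intro x hx
  simp only [Finset.mem_compl, hB x hx]

/-- an odd closed set all of whose proper nonempty closed subsets are odd is connected -/
theorem c34_conn_of_odd (l : List (ℝ × RootD n)) (d : Vec n) (P : Finset (Fin n))
    (hcl : SwClosed l P) (hodd : ∃ z : ℤ, ∑ i ∈ P, d i = 2 * z + 1)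
    (hall : ∀ B : Finset (Fin n), SwClosed l B → B.Nonempty → B ≠ Finset.univ →
      ∃ z : ℤ, ∑ i ∈ B, d i = 2 * z + 1) (hP : P ≠ Finset.univ) : SwConn l P := by
  refine ⟨?_, hcl, ?_⟩
  · rw [Finset.nonempty_iff_ne_empty]
    rintro rfl
    obtain ⟨z, hz⟩ := hodd
    simp only [Finset.sum_empty] at hz
    have : (0 : ℤ) = 2 * z + 1 := by exact_mod_cast hz
    omega
  · intro B hBP hBne hBcl
    by_contra hne
    have hB1 : B ≠ Finset.univ := by
      rintro rfl
      exact hP (Finset.eq_univ_of_forall fun i => hBP (Finset.mem_univ i))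
    have hD : (P \ B).Nonempty := by
      rw [Finset.sdiff_nonempty]
      intro hsub
      exact hne (Finset.Subset.antisymm hBP hsub)
    have hD1 : P \ B ≠ Finset.univ := by
      intro h
      apply hP
      exact Finset.eq_univ_of_forall fun i =>
        (Finset.mem_sdiff.1 (h ▸ Finset.mem_univ i)).1
    obtain ⟨z1, hz1⟩ := hall B hBcl hBne hB1
    obtain ⟨z2, hz2⟩ := hall (P \ B) (c34_closed_sdiff l P B hcl hBcl) hD hD1
    obtain ⟨z, hz⟩ := hodd
    have hsplit := Finset.sum_sdiff (f := d) hBP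
    rw [hz1, hz2, hz] at hsplit
    have : (2 * z2 + 1 + (2 * z1 + 1) : ℤ) = 2 * z + 1 := by exact_mod_cast hsplit
    omega

/-- (C4) Lemma 3.3 (the exceptional case). -/
theorem c34_hard_case (C : Ctx n) (lam xi : Vec n) (θ : Shape n) (L : Lbl lam θ xi)
    (hno : ¬ HasIntSchedule lam θ xi) : Hard lam θ xi := by
  intro w0 l hs hlen
  by_cases hb : l.length = n ∧ SwIndep l
  swap
  · obtain ⟨x, hx, horth⟩ := c34_exists_orth l hlen hb
    exact absurd (c34_balanced C lam xi θ L w0 l hs x hx horth) hno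
  obtain ⟨hln, hind⟩ := hb
  have hdQ := c34_diff_mem_Q lam xi θ L w0 l hs
  have hrel := c34_diff_eq_relSum lam θ w0 l
  have hlen2 : (List.zipWith (· - ·) (swCoeffs θ ⟨w0.act, lam⟩ l)
      (swTotals θ ⟨w0.act, lam⟩ l)).length = l.length := by
    simp [sc_coeffs_length, sc_totals_length]
  rcases c34_coeff_int_or_odd l hind _ hlen2 (by rw [hrel]; exact hdQ.1) with hint | ⟨P, hcl, hodd⟩
  · exfalso
    apply hno
    refine ⟨w0, l, hs, (c34_swIntegral_iff _ _ _).2 ?_⟩
    exact c34_int_of_sub _ _ (by rw [sc_coeffs_length, sc_totals_length]) hint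
      (c34_totals_int θ L.wm _ (sc_isFrame_act w0) l)
  · rw [hrel] at hodd
    have hall := fun B h1 h2 h3 => c34_closed_odd C lam xi θ L hno w0 l hs B h1 h2 h3
    obtain ⟨zt, hzt⟩ := hdQ.2
    have hPu : P ≠ Finset.univ := by
      rintro rfl
      obtain ⟨z, hz⟩ := hodd
      rw [hzt] at hz
      have : (2 * zt : ℤ) = 2 * z + 1 := by exact_mod_cast hz
      omega
    have hoddc : ∃ z : ℤ, ∑ i ∈ Pᶜ, c34Diff lam θ w0 l i = 2 * z + 1 := by
      obtain ⟨z, hz⟩ := hodd
      refine ⟨zt - z - 1, ?_⟩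
      have := Finset.sum_add_sum_compl P (c34Diff lam θ w0 l)
      rw [hz, hzt] at this
      push_cast
      linarith
    have hPc : Pᶜ ≠ Finset.univ := by
      intro h
      have hPe : P = ∅ := by
        rw [← compl_compl P, h]
        simp
      obtain ⟨z, hz⟩ := hodd
      rw [hPe] at hz
      simp only [Finset.sum_empty] at hz
      have : (0 : ℤ) = 2 * z + 1 := by exact_mod_cast hz
      omega
    exact ⟨P, hln, hind, c34_conn_of_odd l _ P hcl hodd hall hPu,
      c34_conn_of_odd l _ Pᶜ (c34_closed_compl l P hcl) hoddc hall hPc, hodd⟩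

end Claimed.Agent.R282
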