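import Claimed.Agent.R282.Sched.Block

/-!
# Row 282, package BP-S34-C (architect helper248): linear algebra of lists of roots

All names carry the prefix `c34_`.  Paper-free.  `dot`, `RootD.vec`, `relSum`, `SwIndep`, `SwClosed` are defined in
`Defs/Basic`, `S2C/Iface`, `S34/Defs`; elementary facts on `dot` are the (sorried) lemmas `sc_dot_*`, `sc_dot_vec`
of `Sched/Weyl.lean`: use them freely.

* L-C-1 = `c34_dot_relSum`, `c34_exists_dual`, `c34_exists_orth` (pure linear algebra).
* L-C-2 = `c34_coeff_int_A` (independent permutation roots are part of an integral basis).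
* L-C-3 = `c34_coeff_int_or_odd` (type `D`: a non-integral coefficient produces an odd closed set).

## Recipes

`c34_dot_relSum`: induction on `l` generalising `c` (`sc_relSum_cons`, `Fin.sum_univ_succ`), or rewrite `relSum` as a
sum over `Fin l.length`.

`c34_exists_dual`: `h.repr` composed with `Finsupp.lapply i` is a linear form on the span; extend it
(`LinearMap.exists_extend`) to `φ : Vec n →ₗ[ℝ] ℝ`; `x k := φ (Pi.single k 1)`; `φ v = dot x v`
(`LinearMap.pi_apply_eq_sum_univ` or `pi_eq_sum_univ`).

`c34_exists_orth`: `T : Vec n →ₗ (Fin l.length → ℝ)`, `T x j = dot x β_j`.  If `l.length < n` the kernel is non-trivial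
(`LinearMap.ker_ne_bot_of_finrank_lt` or `exists_ne_zero...`).  If `l.length = n` and `T` is injective, `T` is surjective
(`LinearMap.injective_iff_surjective_of_finrank_eq_finrank`); a relation `∑ a_j β_j = 0` gives `∑ a_j (T x)_j = 0` for
all `x`; take `T x = a`: `∑ a_j² = 0`; so the roots are independent (`Fintype.linearIndependent_iff`), contradiction.

`c34_coeff_int_A`: fix the index `i`, `β_i = ± (e_a - e_b)`; `x` := dual vector; `B := {k | x k = x a}`;
`y := indicator of B`.  For `j ≠ i`: `x` takes the same value at the two ends of `β_j` (a permutation root orthogonal to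
`x`), so `dot y β_j = 0`; `x a - x b = ± 1` so `b ∉ B` and `dot y β_i = ± 1`.  By `c34_dot_relSum`
`± c_i = dot y (relSum c l) = ∑_{k ∈ B} (relSum c l) k ∈ ℤ`.

`c34_coeff_int_or_odd`: suppose some `c_i ∉ ℤ`.  `x` := dual vector, `a, b` the two ends of `β_i`, `s_a x_a + s_b x_b = 1`.
For `κ > 0` let `B_κ := {k | |x k| = κ}` and `y_κ := x` on `B_κ`, `0` elsewhere.  For `j ≠ i` the ends of `β_j` have equal
`|x|`, so `B_κ` is closed under `β_j` and `dot y_κ β_j = 0`.  Hence `c_i * dot y_κ β_i = dot y_κ d`, `d := relSum c l`, and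
`dot y_κ d = κ * ∑_{k ∈ B_κ} (± d_k)`.
 (1) `|x_a| ≠ |x_b|`: one of them, say `|x_a| = κ`, is `> 0`; `dot y_κ β_i = s_a x_a = ± κ`: `c_i = ± ∑ ± d_k ∈ ℤ`.  Contradiction.
 (2) `|x_a| = |x_b| = κ`: `1 = s_a x_a + s_b x_b ∈ {0, ± 2 κ}` so `κ = 1/2`, `dot y_κ β_i = 1`, `B_κ` is closed under ALL
 roots of `l`, `c_i = (1/2) ∑_{B_κ} (± d_k)`, and `∑ ± d_k ≡ ∑ d_k` mod `2`.  If `∑_{B_κ} d_k` were even `c_i` would be integral.
 So `P := B_κ` is closed and odd.
-/

set_option autoImplicit false

namespace Claimed.Agent.R282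

variable {n : ℕ}

/-! ## L-C-1 -/

theorem c34_dot_relSum (x : Vec n) (c : List ℝ) (l : List (ℝ × RootD n))
    (hc : c.length = l.length) :
    dot x (relSum c l) = ∑ j : Fin l.length, c.getD j 0 * dot x (l.get j).2.vec := by
  induction l generalizing c with
  | nil => simp [relSum, sc_dot_zero_right]
  | cons p l ih =>
    cases c with
    | nil => simp at hc
    | cons a c =>
      rw [sc_relSum_cons, sc_dot_add_right, sc_dot_smul_right, ih c (by simpa using hc)]
      simp only [List.length_cons]
      rw [Fin.sum_univ_succ]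
      simp

/-- every linear form on `Vec n` is a `dot` -/
theorem c34_form_eq_dot (φ : Vec n →ₗ[ℝ] ℝ) :
    ∃ x : Vec n, ∀ v, φ v = dot x v := by
  refine ⟨fun k => φ (Pi.single k 1), fun v => ?_⟩
  have := LinearMap.pi_apply_eq_sum_univ φ v
  rw [this]
  simp only [dot, smul_eq_mul]
  apply Finset.sum_congr rfl
  intro i _
  rw [mul_comm]
  congr 2
  funext j
  simp [Pi.single_apply, eq_comm]

theorem c34_exists_dual (l : List (ℝ × RootD n)) (h : SwIndep l) (i : Fin l.length) :
    ∃ x : Vec n, ∀ j : Fin l.length, dot x (l.get j).2.vec = if j = i then 1 else 0 := by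
  unfold SwIndep at h
  set v : Fin l.length → Vec n := fun i => (l.get i).2.vec with hv
  obtain ⟨φ, hφ⟩ := LinearMap.exists_extend ((Finsupp.lapply i).comp h.repr)
  obtain ⟨x, hx⟩ := c34_form_eq_dot φ
  refine ⟨x, fun j => ?_⟩
  rw [← hx]
  have h1 : φ (v j) = (φ.comp (Submodule.subtype (Submodule.span ℝ (Set.range v))))
      ⟨v j, Submodule.subset_span ⟨j, rfl⟩⟩ := rfl
  change φ (v j) = _
  rw [h1, hφ]
  simp only [LinearMap.comp_apply, Finsupp.lapply_apply]
  rw [h.repr_eq_single j _ rfl]
  simp [Finsupp.single_apply]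

/-- pairing with the roots of a list, as a linear map -/
noncomputable def c34PairMap (l : List (ℝ × RootD n)) : Vec n →ₗ[ℝ] (Fin l.length → ℝ) where
  toFun x := fun j => dot x (l.get j).2.vec
  map_add' x y := by
    funext j
    simp only [Pi.add_apply, sc_dot_add_left]
  map_smul' a x := by
    funext j
    simp only [Pi.smul_apply, sc_dot_smul_left, RingHom.id_apply, smul_eq_mul]

theorem c34_exists_orth (l : List (ℝ × RootD n)) (hlen : l.length ≤ n)
    (h : ¬ (l.length = n ∧ SwIndep l)) :
    ∃ x : Vec n, x ≠ 0 ∧ ∀ p ∈ l, dot x p.2.vec = 0 := by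
  by_contra hcon
  push Not at hcon
  apply h
  have hinj : Function.Injective (c34PairMap l) := by
    rw [← LinearMap.ker_eq_bot, LinearMap.ker_eq_bot']
    intro x hx
    by_contra hx0
    obtain ⟨p, hp, hne⟩ := hcon x hx0
    obtain ⟨j, rfl⟩ := List.get_of_mem hp
    exact hne (congrFun hx j)
  have hle : n ≤ l.length := by
    have := LinearMap.finrank_le_finrank_of_injective hinj
    simpa using this
  have hln : l.length = n := le_antisymm hlen hle
  refine ⟨hln, ?_⟩
  have hsurj : Function.Surjective (c34PairMap l) := by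
    apply (LinearMap.injective_iff_surjective_of_finrank_eq_finrank ?_).1 hinj
    simp [hln]
  unfold SwIndep
  rw [Fintype.linearIndependent_iff]
  intro g hg
  obtain ⟨x, hx⟩ := hsurj g
  have h1 : ∑ j, g j * g j = 0 := by
    have h2 : dot x (∑ j, g j • (l.get j).2.vec) = ∑ j, g j * g j := by
      have h3 : ∀ (s : Finset (Fin l.length)), dot x (∑ j ∈ s, g j • (l.get j).2.vec)
          = ∑ j ∈ s, g j * g j := by
        intro s
        induction s using Finset.induction_on with
        | empty => simp [sc_dot_zero_right]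
        | insert a s ha ih =>
          rw [Finset.sum_insert ha, Finset.sum_insert ha, sc_dot_add_right, sc_dot_smul_right, ih]
          congr 2
          exact congrFun hx a
      exact h3 _
    rw [← h2, hg, sc_dot_zero_right]
  intro j
  have h4 := (Finset.sum_eq_zero_iff_of_nonneg (fun j _ => mul_self_nonneg (g j))).1 h1 j
    (Finset.mem_univ j)
  exact mul_self_eq_zero.1 h4

/-! ## L-C-2 -/

theorem c34_sgnB_perm (β : RootD n) (h : β.IsPerm) : sgnB β.sj = - sgnB β.si := by
  unfold RootD.IsPerm at h
  cases h1 : β.si <;> cases h2 : β.sj <;> simp_all [sgnB]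

/-- a `0/±1`-combination of integers is an integer -/
theorem c34_dot_int (y d : Vec n) (hy : ∀ k, ∃ z : ℤ, y k = z) (hd : ∀ k, ∃ z : ℤ, d k = z) :
    ∃ z : ℤ, dot y d = z := by
  choose f hf using hy
  choose g hg using hd
  refine ⟨∑ k, f k * g k, ?_⟩
  simp only [dot, hf, hg]
  push_cast
  rfl

theorem c34_coeff_int_A (l : List (ℝ × RootD n)) (hind : SwIndep l)
    (hperm : ∀ p ∈ l, p.2.IsPerm) (c : List ℝ) (hc : c.length = l.length)
    (hd : ∀ a, ∃ z : ℤ, relSum c l a = z) : ∀ m ∈ c, ∃ z : ℤ, m = z := by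
  classical
  intro m hm
  obtain ⟨i0, hi0, rfl⟩ := List.getElem_of_mem hm
  set i : Fin l.length := ⟨i0, hc ▸ hi0⟩ with hi
  obtain ⟨x, hx⟩ := c34_exists_dual l hind i
  set β := (l.get i).2 with hβ
  set y : Vec n := fun k => if x k = x β.i then 1 else 0 with hy
  have hpj : ∀ j : Fin l.length, (l.get j).2.IsPerm := fun j => hperm _ (List.get_mem l j)
  have hs : sgnB β.si * sgnB β.si = 1 := sc_sgnB_mul_self _
  have hyj : ∀ j : Fin l.length, dot y (l.get j).2.vec = if j = i then sgnB β.si else 0 := by
    intro j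
    have h1 := hx j
    rw [sc_dot_vec, c34_sgnB_perm _ (hpj j)] at h1 ⊢
    have hsj : sgnB (l.get j).2.si * sgnB (l.get j).2.si = 1 := sc_sgnB_mul_self _
    by_cases hji : j = i
    · subst hji
      rw [if_pos rfl] at h1 ⊢
      have hne : x β.j ≠ x β.i := by
        intro h
        rw [← hβ, h] at h1
        linarith
      simp only [hy, ← hβ, if_true, if_neg hne]
      ring
    · rw [if_neg hji] at h1 ⊢
      have heq : x (l.get j).2.i = x (l.get j).2.j := by
        have : sgnB (l.get j).2.si * (sgnB (l.get j).2.si * x (l.get j).2.i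
            + -sgnB (l.get j).2.si * x (l.get j).2.j) = 0 := by rw [h1, mul_zero]
        have h2 : sgnB (l.get j).2.si * (sgnB (l.get j).2.si * x (l.get j).2.i
            + -sgnB (l.get j).2.si * x (l.get j).2.j)
            = (sgnB (l.get j).2.si * sgnB (l.get j).2.si) * (x (l.get j).2.i - x (l.get j).2.j) := by
          ring
        rw [h2, hsj] at this
        linarith
      simp only [hy, heq]
      ring
  have hsum := c34_dot_relSum y c l hc
  simp only [hyj] at hsum
  rw [Finset.sum_eq_single i (fun j _ hj => by rw [if_neg hj, mul_zero])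
    (fun h => absurd (Finset.mem_univ i) h), if_pos rfl] at hsum
  obtain ⟨z, hz⟩ := c34_dot_int y (relSum c l)
    (fun k => by
      by_cases h : x k = x β.i
      · exact ⟨1, by simp [hy, h]⟩
      · exact ⟨0, by simp [hy, h]⟩) hd
  have hget : c.getD (i : ℕ) 0 = (c)[i0] := List.getD_eq_getElem _ _ hi0
  rw [hget, hz] at hsum
  rcases sc_sgnB_cases β.si with h | h
  · exact ⟨z, by rw [h] at hsum; linarith⟩
  · exact ⟨-z, by rw [h] at hsum; push_cast; linarith⟩

/-! ## L-C-3 -/

theorem c34_abs_eq_of_pair (s t : Bool) (u v : ℝ) (h : sgnB s * u + sgnB t * v = 0) :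
    |u| = |v| := by
  rcases sc_sgnB_cases s with hs | hs <;> rcases sc_sgnB_cases t with ht | ht <;>
    rw [hs, ht] at h
  · have : u = -v := by linarith
    rw [this, abs_neg]
  · have : u = v := by linarith
    rw [this]
  · have : u = v := by linarith
    rw [this]
  · have : u = -v := by linarith
    rw [this, abs_neg]

/-- truncation of `x` to a level set of `|x|`, paired with an integral vector -/
theorem c34_trunc_dot (x d : Vec n) (hd : ∀ k, ∃ z : ℤ, d k = z) (κ : ℝ) :
    ∃ N M : ℤ, dot (fun k => if |x k| = κ then x k else 0) d = κ * N ∧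
      ∑ k ∈ Finset.univ.filter (fun k => |x k| = κ), d k = N + 2 * M := by
  classical
  choose g hg using hd
  refine ⟨∑ k, if |x k| = κ then (if 0 ≤ x k then g k else - g k) else 0,
    ∑ k, if |x k| = κ then (if 0 ≤ x k then 0 else g k) else 0, ?_, ?_⟩
  · simp only [dot]
    push_cast
    rw [Finset.mul_sum]
    apply Finset.sum_congr rfl
    intro k _
    by_cases h : |x k| = κ
    · by_cases h0 : 0 ≤ x k
      · simp only [h, h0, if_true, hg]
        rw [← h, abs_of_nonneg h0]
      · simp only [h, h0, if_true, if_false, hg]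
        rw [← h, abs_of_neg (not_le.1 h0)]
        ring
    · simp [h]
  · rw [Finset.sum_filter]
    push_cast
    rw [Finset.mul_sum, ← Finset.sum_add_distrib]
    apply Finset.sum_congr rfl
    intro k _
    by_cases h : |x k| = κ
    · by_cases h0 : 0 ≤ x k
      · simp [h, h0, hg]
      · simp only [h, h0, if_true, if_false, hg]
        ring
    · simp [h]

theorem c34_coeff_int_or_odd (l : List (ℝ × RootD n)) (hind : SwIndep l) (c : List ℝ)
    (hc : c.length = l.length) (hd : ∀ a, ∃ z : ℤ, relSum c l a = z) :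
    (∀ m ∈ c, ∃ z : ℤ, m = z) ∨
      ∃ P : Finset (Fin n), SwClosed l P ∧ ∃ z : ℤ, ∑ a ∈ P, relSum c l a = 2 * z + 1 := by
  classical
  by_cases hall : ∀ m ∈ c, ∃ z : ℤ, m = z
  · exact Or.inl hall
  right
  push Not at hall
  obtain ⟨m, hm, hmz⟩ := hall
  obtain ⟨i0, hi0, rfl⟩ := List.getElem_of_mem hm
  set i : Fin l.length := ⟨i0, hc ▸ hi0⟩ with hi
  have hget : c.getD (i : ℕ) 0 = (c)[i0] := List.getD_eq_getElem _ _ hi0
  obtain ⟨x, hx⟩ := c34_exists_dual l hind i
  set β := (l.get i).2 with hβ
  set d := relSum c l with hdd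
  have habs : ∀ j : Fin l.length, j ≠ i → |x (l.get j).2.i| = |x (l.get j).2.j| := by
    intro j hj
    have h1 := hx j
    rw [if_neg hj, sc_dot_vec] at h1
    exact c34_abs_eq_of_pair _ _ _ _ h1
  have hy0 : ∀ (κ : ℝ) (j : Fin l.length), j ≠ i →
      dot (fun k => if |x k| = κ then x k else 0) (l.get j).2.vec = 0 := by
    intro κ j hj
    have h1 := hx j
    rw [if_neg hj, sc_dot_vec] at h1
    rw [sc_dot_vec]
    by_cases h : |x (l.get j).2.i| = κ
    · have h' : |x (l.get j).2.j| = κ := (habs j hj) ▸ h
      simp only [h, h', if_true]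
      exact h1
    · have h' : ¬ |x (l.get j).2.j| = κ := (habs j hj) ▸ h
      simp only [h, h', if_false, mul_zero, add_zero]
  have key : ∀ κ : ℝ, (c)[i0] * dot (fun k => if |x k| = κ then x k else 0) β.vec
      = dot (fun k => if |x k| = κ then x k else 0) d := by
    intro κ
    rw [hdd, c34_dot_relSum _ c l hc,
      Finset.sum_eq_single i (fun j _ hj => by rw [hy0 κ j hj, mul_zero])
      (fun h => absurd (Finset.mem_univ i) h), hget]
  have h1 : sgnB β.si * x β.i + sgnB β.sj * x β.j = 1 := by
    have := hx i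
    rwa [if_pos rfl, sc_dot_vec] at this
  -- an end whose level is not shared by the other end forces integrality
  have hcase : ∀ (s : Bool) (u : ℝ) (κ : ℝ), 0 < κ → |u| = κ →
      dot (fun k => if |x k| = κ then x k else 0) β.vec = sgnB s * u → False := by
    intro s u κ hκ hu hdot
    obtain ⟨N, M, hN, -⟩ := c34_trunc_dot x d hd κ
    have h2 := key κ
    rw [hdot, hN] at h2
    have hu' : u = κ ∨ u = -κ := by
      rcases abs_eq hκ.le |>.1 hu with h | h
      · exact Or.inl h
      · exact Or.inr h
    rcases sc_sgnB_cases s with hs | hs <;> rcases hu' with h | h <;> rw [hs, h] at h2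
    · apply hmz N
      have : κ * ((c)[i0] - N) = 0 := by linarith
      rcases mul_eq_zero.1 this with h3 | h3
      · exact absurd h3 hκ.ne'
      · linarith
    · apply hmz (-N)
      have : κ * ((c)[i0] + N) = 0 := by linarith
      rcases mul_eq_zero.1 this with h3 | h3
      · exact absurd h3 hκ.ne'
      · push_cast; linarith
    · apply hmz (-N)
      have : κ * ((c)[i0] + N) = 0 := by linarith
      rcases mul_eq_zero.1 this with h3 | h3
      · exact absurd h3 hκ.ne'
      · push_cast; linarith
    · apply hmz N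
      have : κ * ((c)[i0] - N) = 0 := by linarith
      rcases mul_eq_zero.1 this with h3 | h3
      · exact absurd h3 hκ.ne'
      · linarith
  have heq : |x β.i| = |x β.j| := by
    by_contra hne
    by_cases ha : x β.i = 0
    · have hb : x β.j ≠ 0 := by
        intro hb
        rw [ha, hb] at h1
        simp at h1
      apply hcase β.sj (x β.j) |x β.j| (abs_pos.2 hb) rfl
      rw [sc_dot_vec]
      simp [hne]
    · apply hcase β.si (x β.i) |x β.i| (abs_pos.2 ha) rfl
      rw [sc_dot_vec]
      simp [Ne.symm hne]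
  set κ := |x β.i| with hκdef
  have hκ : κ = 1 / 2 := by
    have hnn : 0 ≤ κ := abs_nonneg _
    have ha : x β.i = κ ∨ x β.i = -κ := (abs_eq hnn).1 rfl
    have hb : x β.j = κ ∨ x β.j = -κ := (abs_eq hnn).1 heq.symm
    rcases sc_sgnB_cases β.si with hs | hs <;> rcases sc_sgnB_cases β.sj with ht | ht <;>
      rcases ha with ha | ha <;> rcases hb with hb | hb <;> rw [hs, ht, ha, hb] at h1 <;>
      linarith
  obtain ⟨N, M, hN, hNM⟩ := c34_trunc_dot x d hd κ
  have hdot : dot (fun k => if |x k| = κ then x k else 0) β.vec = 1 := by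
    rw [sc_dot_vec]
    have e1 : |x β.i| = κ := rfl
    have e2 : |x β.j| = κ := heq.symm
    simp only [e1, e2, if_true]
    exact h1
  have h2 := key κ
  rw [hdot, hN, hκ, mul_one] at h2
  refine ⟨Finset.univ.filter (fun k => |x k| = κ), ?_, ?_⟩
  · intro p hp
    obtain ⟨j, rfl⟩ := List.get_of_mem hp
    simp only [Finset.mem_filter, Finset.mem_univ, true_and]
    by_cases hj : j = i
    · subst hj
      rw [← hβ, ← heq]
    · rw [habs j hj]
  · rcases Int.even_or_odd' N with ⟨k, hk | hk⟩
    · exfalso
      apply hmz k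
      rw [h2, hk]
      push_cast
      ring
    · refine ⟨k + M, ?_⟩
      rw [hNM, hk]
      push_cast
      ring

end Claimed.Agent.R282
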