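import Claimed.Agent.R282.S34.C.Arith
import Claimed.Agent.R282.S2AB.Contracts
import Claimed.Agent.R282.Rep.Shift.Mom

/-!
# Row 282, package BP-S34-C: raw block schedules versus moments

* L-C-6 = `c34_momentA_weyl_mid` (permutation matrices are unitary).  Recipe: for `w` with `w.s = false`,
  `w.act b i = b (w.σ.symm i)`; `P := (Equiv.Perm.permMatrix ℂ w.σ)` or its transpose is unitary and
  `P * diagonal b * Pᴴ = diagonal (w.act b)` (`Matrix.ext`, `Matrix.mul_apply`, `Finset.sum_ite_eq`);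
  replace `h` by `h * P` resp. `h * Pᴴ` in the definition of `MomentA`.
* the rest of the file is glue (proved).
-/

set_option autoImplicit false

namespace Claimed.Agent.R282

variable {n : ℕ}

/-! ## L-C-6 -/

/-- the permutation matrix of an unsigned element, as a unitary matrix -/
theorem c34_perm_unitary (σ : Equiv.Perm (Fin n)) :
    (Equiv.Perm.permMatrix ℂ σ) ∈ Matrix.unitaryGroup (Fin n) ℂ := by
  rw [Matrix.mem_unitaryGroup_iff]
  rw [Matrix.star_eq_conjTranspose]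
  ext i j
  simp [Matrix.mul_apply, Equiv.Perm.permMatrix, Equiv.toPEquiv, PEquiv.toMatrix_apply, Matrix.one_apply]

theorem c34_perm_conj (σ : Equiv.Perm (Fin n)) (v : Fin n → ℂ) :
    Equiv.Perm.permMatrix ℂ σ * Matrix.diagonal v * (Equiv.Perm.permMatrix ℂ σ).conjTranspose
      = Matrix.diagonal (fun i => v (σ i)) := by
  ext i j
  simp [Matrix.mul_apply, Equiv.Perm.permMatrix, Equiv.toPEquiv, PEquiv.toMatrix_apply,
    Matrix.diagonal_apply]
  by_cases h : i = j
  · simp [h]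
  · simp [h]

theorem c34_momentA_mid_of (a b b' c : Vec n) (P : Matrix.unitaryGroup (Fin n) ℂ)
    (hP : P.1 * Matrix.diagonal (fun i => (b i : ℂ)) * P.1.conjTranspose
      = Matrix.diagonal (fun i => (b' i : ℂ))) (h : MomentA a b' c) : MomentA a b c := by
  obtain ⟨g, h, k, hh⟩ := h
  refine ⟨g, h * P, k, ?_⟩
  rw [← hh, ← hP]
  have e : (h * P).1 = h.1 * P.1 := rfl
  rw [e]
  simp only [Matrix.conjTranspose_mul, Matrix.mul_assoc]

theorem c34_momentA_weyl_mid (a b c : Vec n) (w : WD n) (hw : Ty.A.IsW w) :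
    MomentA a (w.act b) c ↔ MomentA a b c := by
  constructor
  · apply c34_momentA_mid_of a b (w.act b) c ⟨_, c34_perm_unitary w.σ.symm⟩
    rw [c34_perm_conj]
    congr 1
    funext i
    rw [c34_act_A w hw]
  · apply c34_momentA_mid_of a (w.act b) b c ⟨_, c34_perm_unitary w.σ⟩
    rw [c34_perm_conj]
    congr 1
    funext i
    rw [c34_act_A w hw]
    simp

/-- a raw schedule whose framed shape has one sign per root gives a moment solution -/
theorem c34_raw_momentD (s26 : SchedMoment .D) (lam y : Vec n) (θ : Shape n) (h1 : OneSign θ)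
    (l : List (ℝ × RootD n)) (h : RawSched lam θ y l) : MomentD lam θ.sum y := by
  obtain ⟨u, θ', hdom, rfl⟩ := sc_sort_D θ h1
  obtain ⟨e1, he1⟩ := sc_WD_one (n := n)
  have hs : IsSchedule lam θ' y u l := (sc_raw_iff lam y θ' u l).2 ⟨e1, by rw [he1]; exact h⟩
  have hs' : IsSched .D lam θ' y u l :=
    ⟨trivial, fun _ _ => trivial, hs.times_mem, hs.sorted, hs.valid, by
      obtain ⟨w, hw⟩ := hs.endpoint
      exact ⟨w, trivial, hw⟩⟩
  have hM : MomentD lam θ'.sum y := s26 n lam y θ' hdom ⟨u, l, hs'⟩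
  rw [sc_sum_map θ' u.act (sc_WD_act_isLinear u)]
  exact (moment_weyl_mid lam θ'.sum y u trivial).2 hM

/-- the same for permutation roots -/
theorem c34_raw_momentA (s26 : SchedMoment .A) (lam y : Vec n) (θ : Shape n) (h1 : OneSignA θ)
    (l : List (ℝ × RootD n)) (hperm : ∀ x ∈ l, x.2.IsPerm) (h : RawSched lam θ y l) :
    MomentA lam θ.sum y := by
  obtain ⟨u, θ', hu, hdom, rfl⟩ := sc_sort_A θ h1
  obtain ⟨e1, he1A, he1⟩ := c34_WA_one (n := n)
  have hs : IsSched .A lam θ' y u l :=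
    (sc_raw_iff_A lam y θ' u l).2 ⟨hu, hperm, e1, he1A, by rw [he1]; exact h⟩
  have hM : MomentA lam θ'.sum y := s26 n lam y θ' hdom ⟨u, l, hs⟩
  rw [sc_sum_map θ' u.act (sc_WD_act_isLinear u)]
  exact (c34_momentA_weyl_mid lam θ'.sum y u hu).2 hM

/-- Theorem 3.1 (ii) in raw form: the shape only needs one sign per root -/
theorem c34_int_raw_D (hq : Thm31D n) (lam y : Vec n) (θ : Shape n) (hne : θ ≠ [])
    (h1 : OneSign θ) (wl : IsWtD lam) (wm : IsWtD θ.sum) (wy : IsWtD y)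
    (hQ : InQD (lam + θ.sum - y))
    (hz : (Finset.univ.filter fun i => θ.sum i = 0).card ≤ 1) (hM : MomentD lam θ.sum y) :
    ∃ (u w : WD n) (l : List (ℝ × RootD n)), RawSched lam (θ.map u.act) (w.act y) l ∧
      SwIntegral (θ.map u.act) ⟨id, lam⟩ l := by
  obtain ⟨u0, θ', hdom, rfl⟩ := sc_sort_D θ h1
  have hsum : (θ'.map u0.act).sum = u0.act θ'.sum := sc_sum_map θ' u0.act (sc_WD_act_isLinear u0)
  rw [hsum] at wm hQ hz hM
  obtain ⟨k, hk1, hk2⟩ := sc_WD_inv u0
  have wm' : IsWtD θ'.sum := by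
    have := sc_isWtD_act k _ wm
    rwa [hk1] at this
  have hQ' : InQD (lam + θ'.sum - y) := by
    have h2 := sc_inQD_sub _ _ hQ (sc_act_sub_mem_Q u0 θ'.sum wm')
    have : lam + u0.act θ'.sum - y - (u0.act θ'.sum - θ'.sum) = lam + θ'.sum - y := by abel
    rwa [this] at h2
  have L : Lbl lam θ' y :=
    ⟨by rintro rfl; exact hne rfl, hdom, wl, wm', wy, hQ', by rwa [c34_zeros_act] at hz⟩
  have hM' : MomentD lam θ'.sum y := (moment_weyl_mid lam θ'.sum y u0 trivial).1 hM
  obtain ⟨u1, w, l, hr, hi⟩ := sc_raw_of_hasInt lam y θ' (hq lam y θ' L hM')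
  obtain ⟨u, hu⟩ := sc_WD_mul u1 k
  have hmap : (θ'.map u0.act).map u.act = θ'.map u1.act := by
    rw [List.map_map]
    apply List.map_congr_left
    intro v _
    simp only [Function.comp, hu, hk1]
  exact ⟨u, w, l, by rw [hmap]; exact hr, by rw [hmap]; exact hi⟩

/-- Theorem 3.1 (i) in raw form -/
theorem c34_int_raw_A (hp : Thm31A n) (lam y : Vec n) (θ : Shape n) (hne : θ ≠ [])
    (h1 : OneSignA θ) (wl : IsWtA lam) (wm : IsWtA θ.sum) (wy : IsWtA y)
    (hQ : InQA (lam + θ.sum - y)) (hM : MomentA lam θ.sum y) :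
    ∃ (u w : WD n) (l : List (ℝ × RootD n)), Ty.A.IsW u ∧ Ty.A.IsW w ∧ (∀ x ∈ l, x.2.IsPerm) ∧
      RawSched lam (θ.map u.act) (w.act y) l ∧ SwIntegral (θ.map u.act) ⟨id, lam⟩ l := by
  obtain ⟨u0, θ', hu0, hdom, rfl⟩ := sc_sort_A θ h1
  have hsum : (θ'.map u0.act).sum = u0.act θ'.sum := sc_sum_map θ' u0.act (sc_WD_act_isLinear u0)
  rw [hsum] at wm hQ hM
  obtain ⟨k, hkA, hk1, hk2⟩ := sc_WA_inv u0 hu0
  have wm' : IsWtA θ'.sum := by
    have := c34_isWtA_act k hkA _ wm
    rwa [hk1] at this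
  have hQ' : InQA (lam + θ'.sum - y) := by
    refine ⟨fun i => ?_, ?_⟩
    · obtain ⟨z, hz⟩ := hQ.1 i
      obtain ⟨z', hz'⟩ := c34_act_sub_int_A u0 hu0 θ'.sum wm' i
      refine ⟨z - z', ?_⟩
      simp only [Pi.add_apply, Pi.sub_apply] at hz ⊢
      push_cast
      linarith
    · have h2 := hQ.2
      have h3 := c34_sum_act_A u0 hu0 θ'.sum
      simp only [Pi.add_apply, Pi.sub_apply, Finset.sum_add_distrib, Finset.sum_sub_distrib]
        at h2 ⊢
      linarith
  have hM' : MomentA lam θ'.sum y := (c34_momentA_weyl_mid lam θ'.sum y u0 hu0).1 hM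
  obtain ⟨u1, w, l, hu1, hw, hperm, hr, hi⟩ := sc_raw_of_hasIntA lam y θ'
    (hp lam y θ' (by rintro rfl; exact hne rfl) hdom wl wm' wy hQ' hM')
  obtain ⟨u, huA, hu⟩ := sc_WA_mul u1 k hu1 hkA
  have hmap : (θ'.map u0.act).map u.act = θ'.map u1.act := by
    rw [List.map_map]
    apply List.map_congr_left
    intro v _
    simp only [Function.comp, hu, hk1]
  exact ⟨u, w, l, huA, hw, hperm, by rw [hmap]; exact hr, by rw [hmap]; exact hi⟩

end Claimed.Agent.R282
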